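import Mathlib

/-!
# P112: the admissible truncation length for Lipschitz fields is at most one

The field is the nearest-point projection onto the half-plane `1 ≤ x 0`, normalised.
-/

namespace Vale.Agent.Results.P112.SteinRadiusNecessary

open MeasureTheory Filter Metric Set
open scoped Topology InnerProductSpace

noncomputable section

/-- The ambient plane. -/
abbrev E : Type := EuclideanSpace ℝ (Fin 2)

def proj (x : E) : E := !₂[max (x 0) 1, x 1]

def field (x : E) : E := ‖proj x‖⁻¹ • proj x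

lemma one_le_norm_proj (x : E) : 1 ≤ ‖proj x‖ := by
  rw [EuclideanSpace.norm_eq]
  apply Real.one_le_sqrt.mpr
  simp [proj, Fin.sum_univ_two]
  nlinarith [le_max_right (x 0) (1 : ℝ), sq_nonneg (x 1)]

lemma proj_lip (x y : E) : ‖proj x - proj y‖ ≤ ‖x - y‖ := by
  rw [EuclideanSpace.norm_eq, EuclideanSpace.norm_eq]
  apply Real.sqrt_le_sqrt
  simp [proj, Fin.sum_univ_two]
  exact sq_le_sq.mpr (abs_max_sub_max_le_abs _ _ _)

lemma normalize_lip {p q : E} (hp : 1 ≤ ‖p‖) (hq : 1 ≤ ‖q‖) :
    ‖‖p‖⁻¹ • p - ‖q‖⁻¹ • q‖ ≤ ‖p - q‖ := by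
  have hp0 : 0 < ‖p‖ := by linarith
  have hq0 : 0 < ‖q‖ := by linarith
  have hcs := real_inner_le_norm p q
  apply abs_le_of_sq_le_sq' ?_ (norm_nonneg _) |>.2
  rw [norm_sub_sq_real, norm_sub_sq_real, norm_smul, norm_smul, inner_smul_left, inner_smul_right]
  simp only [norm_inv, norm_norm, conj_trivial]
  rw [inv_mul_cancel₀ hp0.ne', inv_mul_cancel₀ hq0.ne']
  have h1 : 1 ≤ ‖p‖ * ‖q‖ := one_le_mul_of_one_le_of_one_le hp hq
  have h2 : 0 ≤ ‖p‖ * ‖q‖ * (‖p‖ - ‖q‖) ^ 2 +
      2 * (‖p‖ * ‖q‖ - 1) * (‖p‖ * ‖q‖ - ⟪p, q⟫_ℝ) := by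
    have := mul_nonneg (sub_nonneg.mpr h1) (sub_nonneg.mpr hcs)
    positivity
  have hmul : 0 < ‖p‖ * ‖q‖ := mul_pos hp0 hq0
  rw [← sub_nonneg]
  apply nonneg_of_mul_nonneg_right (a := ‖p‖ * ‖q‖) ?_ hmul
  field_simp
  nlinarith

lemma field_lip : LipschitzWith 1 field := by
  apply LipschitzWith.of_dist_le_mul
  intro x y
  simp only [NNReal.coe_one, one_mul, dist_eq_norm]
  exact (normalize_lip (one_le_norm_proj x) (one_le_norm_proj y)).trans (proj_lip x y)

lemma field_unit (x : E) : ‖field x‖ = 1 := by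
  have := one_le_norm_proj x
  simp [field, norm_smul, inv_mul_cancel₀ (show ‖proj x‖ ≠ 0 by linarith)]

lemma field_eq {x : E} (h : 1 ≤ x 0) : field x = ‖x‖⁻¹ • x := by
  have : proj x = x := by
    ext i
    fin_cases i <;> simp [proj, max_eq_left h]
  simp [field, this]

lemma inv_sq_le_sum {R : ℝ} (hR : 0 < R) :
    ∀ (n : ℕ) (y : E), ‖y‖ < R →
      ((R / 2 ^ n) ^ 2 + ‖y‖ ^ 2)⁻¹ ≤
        ∑ k ∈ Finset.range (n + 1),
          (ball (0 : E) (R / 2 ^ k)).indicator (fun _ => 4 ^ (k + 1) / R ^ 2) y := by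
  intro n y hy
  have hnn : ∀ k ∈ Finset.range (n + 1),
      0 ≤ (ball (0 : E) (R / 2 ^ k)).indicator (fun _ => 4 ^ (k + 1) / R ^ 2) y := by
    intro k _
    exact Set.indicator_nonneg (fun _ _ => by positivity) _
  by_cases hn : ‖y‖ < R / 2 ^ n
  · refine le_trans ?_ (Finset.single_le_sum hnn (Finset.self_mem_range_succ n))
    rw [Set.indicator_of_mem (by simpa using hn)]
    calc ((R / 2 ^ n) ^ 2 + ‖y‖ ^ 2)⁻¹ ≤ ((R / 2 ^ n) ^ 2)⁻¹ :=
          inv_anti₀ (by positivity) (by nlinarith [sq_nonneg ‖y‖])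
      _ = 4 ^ n / R ^ 2 := by
          rw [div_pow, inv_div, ← pow_mul, pow_mul']
          norm_num
      _ ≤ 4 ^ (n + 1) / R ^ 2 := by
          gcongr
          · norm_num
          · omega
  · have hex : ∃ k, ¬ ‖y‖ < R / 2 ^ k := ⟨n, hn⟩
    classical
    obtain ⟨j, hj⟩ : ∃ j, Nat.find hex = j + 1 := by
      refine Nat.exists_eq_succ_of_ne_zero ?_
      intro h0
      have := Nat.find_spec hex
      rw [h0] at this
      simp [hy] at this
    have hjn : j + 1 ≤ n := hj ▸ Nat.find_min' hex hn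
    have hlo : R / 2 ^ (j + 1) ≤ ‖y‖ := by
      have := Nat.find_spec hex
      rw [hj] at this
      linarith [not_lt.mp this]
    have hhi : ‖y‖ < R / 2 ^ j := not_not.mp (Nat.find_min hex (by omega : j < Nat.find hex))
    refine le_trans ?_ (Finset.single_le_sum hnn (Finset.mem_range.mpr (by omega : j < n + 1)))
    rw [Set.indicator_of_mem (by simpa using hhi)]
    calc ((R / 2 ^ n) ^ 2 + ‖y‖ ^ 2)⁻¹ ≤ ((R / 2 ^ (j + 1)) ^ 2)⁻¹ := by
          apply inv_anti₀ (by positivity)
          have : (R / 2 ^ (j + 1)) ^ 2 ≤ ‖y‖ ^ 2 := pow_le_pow_left₀ (by positivity) hlo 2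
          nlinarith [sq_nonneg (R / 2 ^ n)]
      _ = 4 ^ (j + 1) / R ^ 2 := by
          rw [div_pow, inv_div, ← pow_mul, pow_mul']
          norm_num

/-- A regularised and cut-off version of `1/|y|`. -/
lemma exists_test {R : ℝ} (hR : 0 < R) (n : ℕ) :
    ∃ f : SchwartzMap E ℝ,
      (∀ y, 0 ≤ f y) ∧ (∀ y, R ≤ ‖y‖ → f y = 0) ∧
      (∀ y, ‖y‖ ≤ R / 2 → (R / 2 ^ n + ‖y‖)⁻¹ ≤ f y) ∧
      ∫ y, (f y) ^ 2 ≤ 4 * (n + 1) * (volume : Measure E).real (ball 0 1) := by
  set ε : ℝ := R / 2 ^ n with hε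
  have hεpos : 0 < ε := by positivity
  let φ : ContDiffBump (0 : E) := ⟨R / 2, R, by positivity, by linarith⟩
  have hpos : ∀ y : E, 0 < ε ^ 2 + ‖y‖ ^ 2 := fun y => by positivity
  set g : E → ℝ := fun y => φ y * (Real.sqrt (ε ^ 2 + ‖y‖ ^ 2))⁻¹ with hg
  have hsm : ContDiff ℝ (⊤ : ℕ∞) g :=
    φ.contDiff.mul (((contDiff_const.add (contDiff_norm_sq ℝ)).sqrt
      fun y => (hpos y).ne').inv fun y => (Real.sqrt_pos.mpr (hpos y)).ne')
  have hcs : HasCompactSupport g := φ.hasCompactSupport.mul_right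
  refine ⟨hcs.toSchwartzMap hsm, ?_, ?_, ?_, ?_⟩
  · intro y
    show 0 ≤ g y
    have := φ.nonneg' y
    positivity
  · intro y hy
    show g y = 0
    have : φ y = 0 := φ.zero_of_le_dist (by simpa using hy)
    simp [hg, this]
  · intro y hy
    show _ ≤ g y
    have : φ y = 1 := φ.one_of_mem_closedBall (by simpa using hy)
    simp only [hg, this, one_mul]
    apply inv_anti₀ (Real.sqrt_pos.mpr (hpos y))
    apply Real.sqrt_le_iff.mpr
    constructor
    · positivity
    · nlinarith [norm_nonneg y, mul_nonneg hεpos.le (norm_nonneg y)]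
  · show ∫ y, (g y) ^ 2 ≤ _
    let F : ℕ → E → ℝ := fun k =>
      (ball (0 : E) (R / 2 ^ k)).indicator (fun _ => 4 ^ (k + 1) / R ^ 2)
    have hFint : ∀ k, Integrable (F k) := fun k =>
      (integrable_indicator_iff measurableSet_ball).mpr
        (integrableOn_const measure_ball_lt_top.ne)
    calc ∫ y, (g y) ^ 2 ≤ ∫ y, ∑ k ∈ Finset.range (n + 1), F k y := by
          apply integral_mono_of_nonneg (Eventually.of_forall fun y => sq_nonneg _)
            (integrable_finsetSum _ fun k _ => hFint k)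
          refine Eventually.of_forall fun y => ?_
          by_cases hy : ‖y‖ < R
          · refine le_trans ?_ (inv_sq_le_sum hR n y hy)
            have h0 := φ.nonneg' y
            have h1 : φ y ≤ 1 := φ.le_one
            simp only [hg, mul_pow, inv_pow, Real.sq_sqrt (hpos y).le]
            exact mul_le_of_le_one_left (by positivity) (pow_le_one₀ h0 h1)
          · have : φ y = 0 := φ.zero_of_le_dist (by simpa using not_lt.mp hy)
            simp only [hg, this, zero_mul]
            norm_num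
            exact Finset.sum_nonneg fun k _ => Set.indicator_nonneg (fun _ _ => by positivity) _
      _ = ∑ k ∈ Finset.range (n + 1), ∫ y, F k y := integral_finsetSum _ fun k _ => hFint k
      _ = ∑ _k ∈ Finset.range (n + 1), 4 * (volume : Measure E).real (ball 0 1) := by
          refine Finset.sum_congr rfl fun k _ => ?_
          rw [integral_indicator measurableSet_ball, setIntegral_const, measureReal_def,
            Measure.addHaar_ball volume (0 : E) (by positivity), ENNReal.toReal_mul,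
            ENNReal.toReal_ofReal (by positivity), ← measureReal_def]
          simp only [finrank_euclideanSpace, Fintype.card_fin, smul_eq_mul]
          rw [div_pow, ← pow_mul, pow_mul', show ((2 : ℝ) ^ 2) = 4 by norm_num, pow_succ]
          field_simp
          ring
      _ = _ := by simp; ring

/-- Along the radial lines through the test ball the transform is of size `log`. -/
lemma transform_large {a R : ℝ} (hR : 0 < R) (n : ℕ) (f : SchwartzMap E ℝ)
    (h0 : ∀ y, 0 ≤ f y) (hsupp : ∀ y, R ≤ ‖y‖ → f y = 0)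
    (hlow : ∀ y, ‖y‖ ≤ R / 2 → (R / 2 ^ (n + 1) + ‖y‖)⁻¹ ≤ f y)
    {x : E} (hx : 1 ≤ x 0) (hxR : R < ‖x‖) (hxa : ‖x‖ + R < a) :
    ∃ L, Tendsto (fun ε => ∫ t in {t : ℝ | ε < |t| ∧ |t| < a}, f (x - t • field x) / t)
      (𝓝[>] 0) (𝓝 L) ∧ n * Real.log 2 / a ≤ L := by
  set r := ‖x‖ with hr
  have hr0 : 0 < r := hR.trans hxR
  have ha : 0 < a := by linarith
  have hnorm : ∀ t, ‖x - t • field x‖ = |r - t| := by
    intro t
    rw [field_eq hx, smul_smul]
    nth_rw 1 [← one_smul ℝ x]
    rw [← sub_smul, norm_smul, Real.norm_eq_abs, ← hr]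
    nth_rw 2 [← abs_of_pos hr0]
    rw [← abs_mul]
    congr 1
    field_simp
  set F : ℝ → ℝ := fun t => f (x - t • field x) / max t (r - R) with hF
  have hmax : ∀ t, 0 < max t (r - R) := fun t => lt_max_of_lt_right (by linarith)
  have hFeq : ∀ t, f (x - t • field x) / t = F t := by
    intro t
    by_cases h : R ≤ |r - t|
    · simp [hF, hsupp _ (by rwa [hnorm])]
    · simp only [hF]
      rw [max_eq_left]
      linarith [(abs_lt.mp (not_le.mp h)).2]
  have hFz : ∀ t, R ≤ |r - t| → F t = 0 := fun t h => by simp [hF, hsupp _ (by rwa [hnorm])]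
  have hFn : ∀ t, 0 ≤ F t := fun t => div_nonneg (h0 _) (hmax t).le
  have hFc : Continuous F := by
    apply Continuous.div (f.continuous.comp (by fun_prop)) (by fun_prop) fun t => (hmax t).ne'
  have hFi : Integrable F := hFc.integrable_of_hasCompactSupport <|
    HasCompactSupport.intro (isCompact_Icc (a := r - R) (b := r + R)) fun t ht => hFz t <| by
      simp only [mem_Icc, not_and_or, not_le] at ht
      rcases ht with ht | ht
      · exact le_trans (by linarith) (le_abs_self _)
      · exact le_trans (by linarith) (neg_le_abs _)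
  refine ⟨∫ t, F t, ?_, ?_⟩
  · apply tendsto_const_nhds.congr'
    filter_upwards [Ioo_mem_nhdsGT (show (0 : ℝ) < r - R by linarith)] with ε hε
    simp_rw [hFeq]
    symm
    apply setIntegral_eq_integral_of_forall_compl_eq_zero
    intro t ht
    apply hFz
    simp only [Set.mem_ofPred_eq, not_and_or, not_lt] at ht
    rcases ht with ht | ht
    · exact le_trans (by linarith [le_abs_self t, hε.2]) (le_abs_self _)
    · rcases le_or_gt 0 t with h | h
      · rw [abs_of_nonneg h] at ht
        exact le_trans (by linarith) (neg_le_abs _)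
      · exact le_trans (by linarith) (le_abs_self _)
  · set ε : ℝ := R / 2 ^ (n + 1) with hε
    have hεpos : 0 < ε := by positivity
    have hab : r - R / 2 ≤ r := by linarith
    have hlb : ∀ t ∈ Icc (r - R / 2) r, a⁻¹ * (ε + (r - t))⁻¹ ≤ F t := by
      intro t ht
      have htn : ‖x - t • field x‖ = r - t := by rw [hnorm, abs_of_nonneg (by linarith [ht.2])]
      have hm : max t (r - R) ≤ a := max_le (by linarith [ht.2]) (by linarith)
      have := hlow (x - t • field x) (by rw [htn]; linarith [ht.1])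
      rw [htn] at this
      simp only [hF, div_eq_inv_mul]
      exact mul_le_mul (inv_anti₀ (hmax t) hm) this
        (inv_nonneg.mpr (by linarith [ht.2])) (inv_nonneg.mpr (hmax t).le)
    have hgi : IntervalIntegrable (fun t => a⁻¹ * (ε + (r - t))⁻¹) volume (r - R / 2) r := by
      apply ContinuousOn.intervalIntegrable
      rw [uIcc_of_le hab]
      exact continuousOn_const.mul ((Continuous.continuousOn (by fun_prop)).inv₀ fun t ht => by
        linarith [ht.2])
    calc n * Real.log 2 / a ≤ a⁻¹ * Real.log ((ε + R / 2) / ε) := by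
          rw [div_eq_inv_mul]
          gcongr
          rw [← Real.log_pow]
          apply Real.log_le_log (by positivity)
          rw [le_div_iff₀ hεpos, hε]
          have : (2 : ℝ) ^ n * (R / 2 ^ (n + 1)) = R / 2 := by rw [pow_succ]; field_simp
          linarith
      _ = ∫ t in (r - R / 2)..r, a⁻¹ * (ε + (r - t))⁻¹ := by
          rw [intervalIntegral.integral_const_mul,
            intervalIntegral.integral_comp_sub_left (fun u => (ε + u)⁻¹) r,
            intervalIntegral.integral_comp_add_left (fun u => u⁻¹) ε,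
            integral_inv_of_pos (by linarith) (by linarith)]
          congr 3 <;> ring
      _ ≤ ∫ t in (r - R / 2)..r, F t :=
          intervalIntegral.integral_mono_on hab hgi (hFc.intervalIntegrable _ _) hlb
      _ ≤ ∫ t, F t := by
          rw [intervalIntegral.integral_of_le hab]
          exact setIntegral_le_integral hFi (Eventually.of_forall hFn)

theorem result :
    ∃ v : EuclideanSpace ℝ (Fin 2) → EuclideanSpace ℝ (Fin 2),
      (∀ x, ‖v x‖ = 1) ∧ LipschitzWith 1 v ∧
      ∀ a : ℝ, 1 < a → ∀ C : ℝ, ∃ f : SchwartzMap (EuclideanSpace ℝ (Fin 2)) ℝ, ∃ l : ℝ,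
        0 < l ∧ ENNReal.ofReal (C / l ^ 2 * ∫ x, (f x) ^ 2) <
          volume {x : EuclideanSpace ℝ (Fin 2) | ∃ L : ℝ,
            Tendsto (fun ε => ∫ t in {t : ℝ | ε < |t| ∧ |t| < a}, f (x - t • v x) / t)
              (𝓝[>] 0) (𝓝 L) ∧ l < |L|} := by
  refine ⟨field, field_unit, field_lip, fun a ha C => ?_⟩
  set s : ℝ := (a - 1) / 5 with hs
  have hs0 : 0 < s := by linarith
  set R : ℝ := min s (1 / 2) with hRdef
  have hR : 0 < R := lt_min hs0 (by norm_num)
  set c : E := !₂[1 + 2 * s, 0] with hc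
  set S : Set E := ball c s with hS
  have hP : 0 < (volume : Measure E).real S :=
    ENNReal.toReal_pos (measure_ball_pos volume c hs0).ne' measure_ball_lt_top.ne
  set V : ℝ := (volume : Measure E).real (ball 0 1) with hV
  have hV0 : 0 ≤ V := ENNReal.toReal_nonneg
  have hlog : 0 < Real.log 2 := Real.log_pos one_lt_two
  obtain ⟨m, hm⟩ := exists_nat_gt
    (|C| * V * 48 * a ^ 2 / (Real.log 2 ^ 2 * (volume : Measure E).real S))
  set n : ℕ := m + 1 with hn
  have hn1 : (1 : ℝ) ≤ n := by simp [hn]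
  obtain ⟨f, h0, hsupp, hlow, hint⟩ := exists_test hR (n + 1)
  set l : ℝ := n * Real.log 2 / (2 * a) with hl
  have hlpos : 0 < l := by positivity
  refine ⟨f, l, hlpos, ?_⟩
  have hsub : S ⊆ {x : E | ∃ L : ℝ,
      Tendsto (fun ε => ∫ t in {t : ℝ | ε < |t| ∧ |t| < a}, f (x - t • field x) / t)
        (𝓝[>] 0) (𝓝 L) ∧ l < |L|} := by
    intro x hx
    rw [hS, mem_ball, dist_eq_norm] at hx
    have hcn : ‖c‖ = 1 + 2 * s := by
      rw [EuclideanSpace.norm_eq]
      simp [hc, Fin.sum_univ_two]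
      rw [Real.sqrt_sq (by linarith)]
    have hco : |x 0 - c 0| ≤ ‖x - c‖ := by
      simpa using PiLp.norm_apply_le (x - c) 0
    have hc0 : c 0 = 1 + 2 * s := by simp [hc]
    have hx0 : 1 + s < x 0 := by
      rw [hc0] at hco
      linarith [(abs_le.mp hco).1]
    have hxn : x 0 ≤ ‖x‖ := (le_abs_self _).trans (by simpa using PiLp.norm_apply_le x 0)
    have hRs : R ≤ s := min_le_left _ _
    have hRh : R ≤ 1 / 2 := min_le_right _ _
    have hxup : ‖x‖ ≤ ‖c‖ + ‖x - c‖ := norm_le_norm_add_norm_sub' x c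
    obtain ⟨L, hL, hLb⟩ := transform_large (a := a) hR n f h0 hsupp hlow (x := x)
      (by linarith) (by linarith) (by linarith)
    refine ⟨L, hL, lt_of_lt_of_le ?_ (hLb.trans (le_abs_self L))⟩
    rw [hl]
    exact div_lt_div_of_pos_left (by positivity) (by linarith) (by linarith)
  refine lt_of_lt_of_le ?_ (measure_mono hsub)
  rw [← ofReal_measureReal (s := S) measure_ball_lt_top.ne, ENNReal.ofReal_lt_ofReal_iff hP]
  have hI0 : 0 ≤ ∫ x, (f x) ^ 2 := integral_nonneg fun x => sq_nonneg _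
  calc C / l ^ 2 * ∫ x, (f x) ^ 2 ≤ |C| / l ^ 2 * ∫ x, (f x) ^ 2 := by
        gcongr; exact le_abs_self C
    _ ≤ |C| / l ^ 2 * (4 * ((n + 1 : ℕ) + 1) * V) := by gcongr
    _ ≤ |C| / l ^ 2 * (12 * n * V) := by
        refine mul_le_mul_of_nonneg_left (mul_le_mul_of_nonneg_right ?_ hV0) (by positivity)
        push_cast
        linarith
    _ = |C| * V * 48 * a ^ 2 / (Real.log 2 ^ 2 * n) := by
        rw [hl]; field_simp; ring
    _ < (volume : Measure E).real S := by
        rw [div_lt_iff₀ (by positivity)] at hm ⊢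
        have : (m : ℝ) < n := by simp [hn]
        nlinarith [mul_lt_mul_of_pos_left this (mul_pos (pow_pos hlog 2) hP)]

end

end Vale.Agent.Results.P112.SteinRadiusNecessary
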