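import Vale.Agent.P112.Transfer

/-!
# P112: a square-root logarithmic `L2` bound for Hilbert transforms along all Lipschitz fields
-/

namespace Vale.Agent.Results.P112.SteinSqrtLog

open MeasureTheory Filter Set
open Vale.Agent.P112
open scoped Topology ENNReal

noncomputable section

/-- The plane. -/
abbrev E : Type := EuclideanSpace ℝ (Fin 2)

/-- Coordinates. -/
def crd : E ≃ᵐ ℝ × ℝ :=
  (MeasurableEquiv.toLp 2 (Fin 2 → ℝ)).symm.trans (MeasurableEquiv.piFinTwo fun _ => ℝ)

lemma crd_apply (x : E) : crd x = (x 0, x 1) := rfl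

lemma crd_symm_apply (p : ℝ × ℝ) : (crd.symm p) 0 = p.1 ∧ (crd.symm p) 1 = p.2 := by
  have h := crd_apply (crd.symm p)
  rw [MeasurableEquiv.apply_symm_apply] at h
  exact ⟨(congrArg Prod.fst h).symm, (congrArg Prod.snd h).symm⟩

lemma crd_mp : MeasurePreserving crd volume volume :=
  (volume_preserving_piFinTwo fun _ => ℝ).comp (PiLp.volume_preserving_ofLp (Fin 2))

def coord (v : E → E) (p : ℝ × ℝ) : ℝ × ℝ := crd (v (crd.symm p))

variable {v : E → E} (hv : ∀ x, ‖v x‖ = 1) (hL : LipschitzWith 1 v)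

lemma norm_sq_eq (x : E) : ‖x‖ ^ 2 = x 0 ^ 2 + x 1 ^ 2 := by
  rw [EuclideanSpace.norm_eq, Real.sq_sqrt (Finset.sum_nonneg fun i _ => sq_nonneg _)]
  simp [Fin.sum_univ_two]

include hv hL in
lemma unitField_coord : UnitField (coord v) := by
  have hd : ∀ p q : ℝ × ℝ, ‖v (crd.symm p) - v (crd.symm q)‖ ≤
      Real.sqrt ((p.1 - q.1) ^ 2 + (p.2 - q.2) ^ 2) := by
    intro p q
    have h := hL.dist_le_mul (crd.symm p) (crd.symm q)
    simp only [dist_eq_norm, NNReal.coe_one, one_mul] at h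
    refine h.trans (Real.le_sqrt_of_sq_le ?_)
    rw [norm_sq_eq]
    simp [(crd_symm_apply p).1, (crd_symm_apply p).2, (crd_symm_apply q).1, (crd_symm_apply q).2]
  refine ⟨fun p => ?_, fun p q => le_trans ?_ (hd p q), fun p q => le_trans ?_ (hd p q)⟩
  · simp only [coord, crd_apply]
    rw [← norm_sq_eq, hv, one_pow]
  · simpa [coord, crd_apply] using PiLp.norm_apply_le (v (crd.symm p) - v (crd.symm q)) 0
  · simpa [coord, crd_apply] using PiLp.norm_apply_le (v (crd.symm p) - v (crd.symm q)) 1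

lemma move_eq (x : E) (t : ℝ) : crd.symm (move (coord v) t (crd x)) = x - t • v x := by
  have hx : crd.symm (crd x) = x := crd.symm_apply_apply x
  simp only [move, coord, hx]
  ext i
  fin_cases i <;> simp [(crd_symm_apply _).1, (crd_symm_apply _).2, crd_apply]

/-- The truncated integrand region is `ann` up to a null set. -/
lemma open_ann_ae (ε a : ℝ) : {t : ℝ | ε < |t| ∧ |t| < a} =ᵐ[volume] ann ε a := by
  have hnull : volume ({ε, -ε} : Set ℝ) = 0 := (Set.toFinite _).measure_zero volume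
  rw [ae_eq_set]
  refine ⟨measure_mono_null (fun t ht => ?_) hnull, measure_mono_null (fun t ht => ?_) hnull⟩
  · exact absurd (show t ∈ ann ε a from ⟨ht.1.1.le, ht.1.2⟩) ht.2
  · have : ¬ε < |t| := fun h => ht.2 ⟨h, ht.1.2⟩
    have he : |t| = ε := le_antisymm (not_lt.mp this) ht.1.1
    rcases abs_choice t with h | h
    · exact Or.inl (by linarith)
    · exact Or.inr (by simp only [mem_singleton_iff]; linarith)

variable (f : SchwartzMap E ℂ)

lemma bounded_f : ∃ B, 0 ≤ B ∧ ∀ x, ‖f x‖ ≤ B :=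
  ⟨SchwartzMap.seminorm ℝ 0 0 f, apply_nonneg _ _, fun x => SchwartzMap.norm_le_seminorm ℝ f x⟩

lemma nice_part (L : ℂ →L[ℝ] ℝ) (hle : ∀ z, |L z| ≤ ‖z‖) :
    Nice volume fun p => L (f (crd.symm p)) := by
  obtain ⟨B, hB0, hB⟩ := bounded_f f
  refine ⟨(L.continuous.comp f.continuous).measurable.comp crd.symm.measurable, ?_, B, hB0,
    fun p => (hle _).trans (hB _)⟩
  have hi : Integrable (fun x => L (f x)) := L.integrable_comp f.integrable
  exact ((crd_mp.symm crd).integrable_comp_emb crd.symm.measurableEmbedding).mpr hi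

lemma integrableOn_kernel {v : E → E} {ε a : ℝ} (hε : 0 < ε) (x : E) :
    IntegrableOn (fun t : ℝ => f (x - t • v x) / (t : ℂ)) (ann ε a) := by
  obtain ⟨B, hB0, hB⟩ := bounded_f f
  refine IntegrableOn.of_bound (volume_ann_lt_top ε a)
    (Measurable.aestronglyMeasurable ?_) (B / ε)
    ((ae_restrict_mem (measurableSet_ann ε a)).mono fun t ht => ?_)
  · exact (f.continuous.measurable.comp (by fun_prop)).div Complex.continuous_ofReal.measurable
  · rw [norm_div, Complex.norm_real]
    exact div_le_div₀ hB0 (hB _) hε ht.1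

include hv hL in
lemma trunc_complex {ε a : ℝ} (hε : 0 < ε) (ha : ε < a) (ha' : a ≤ 1 / 16384) :
    Integrable (fun x => ‖∫ t in {t : ℝ | ε < |t| ∧ |t| < a}, f (x - t • v x) / (t : ℂ)‖ ^ 2) ∧
    ∫ x, ‖∫ t in {t : ℝ | ε < |t| ∧ |t| < a}, f (x - t • v x) / (t : ℂ)‖ ^ 2 ≤
      16000000 * (1 + Real.log (a / ε)) * ∫ x, ‖f x‖ ^ 2 := by
  have hw := unitField_coord hv hL
  have nr := nice_part f Complex.reCLM fun z => Complex.abs_re_le_norm z
  have ni := nice_part f Complex.imCLM fun z => Complex.abs_im_le_norm z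
  obtain ⟨br, ir⟩ := hw.trunc_sq nr hε ha ha'
  obtain ⟨bi, ii⟩ := hw.trunc_sq ni hε ha ha'
  have key : ∀ (L : ℂ →L[ℝ] ℝ), (∀ (z : ℂ) (t : ℝ), L (z / (t : ℂ)) = L z / t) → ∀ x : E,
      L (∫ t in {t : ℝ | ε < |t| ∧ |t| < a}, f (x - t • v x) / (t : ℂ)) =
        trunc (coord v) ε a (fun p => L (f (crd.symm p))) (crd x) := by
    intro L hdiv x
    rw [setIntegral_congr_set (open_ann_ae ε a),
      ← L.integral_comp_comm (integrableOn_kernel (v := v) f hε x),
      ← integral_indicator (measurableSet_ann ε a), trunc]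
    simp only [hdiv, move_eq]
  have kr := key Complex.reCLM fun z t => by simp [Complex.div_ofReal_re]
  have ki := key Complex.imCLM fun z t => by simp [Complex.div_ofReal_im]
  have e : (fun x => ‖∫ t in {t : ℝ | ε < |t| ∧ |t| < a}, f (x - t • v x) / (t : ℂ)‖ ^ 2) =
      fun x => trunc (coord v) ε a (fun p => Complex.reCLM (f (crd.symm p))) (crd x) ^ 2 +
        trunc (coord v) ε a (fun p => Complex.imCLM (f (crd.symm p))) (crd x) ^ 2 := by
    funext x
    rw [← kr x, ← ki x, Complex.sq_norm, Complex.normSq_apply]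
    simp only [Complex.reCLM_apply, Complex.imCLM_apply]
    ring
  have hr := (crd_mp.integrable_comp_emb crd.measurableEmbedding).mpr ir
  have hi := (crd_mp.integrable_comp_emb crd.measurableEmbedding).mpr ii
  rw [e]
  refine ⟨hr.add hi, ?_⟩
  rw [integral_add (f := fun x => trunc (coord v) ε a (fun p => Complex.reCLM (f (crd.symm p))) (crd x) ^ 2)
    (g := fun x => trunc (coord v) ε a (fun p => Complex.imCLM (f (crd.symm p))) (crd x) ^ 2) hr hi,
    crd_mp.integral_comp crd.measurableEmbedding (fun p => trunc (coord v) ε a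
      (fun p => Complex.reCLM (f (crd.symm p))) p ^ 2),
    crd_mp.integral_comp crd.measurableEmbedding (fun p => trunc (coord v) ε a
      (fun p => Complex.imCLM (f (crd.symm p))) p ^ 2)]
  have hsum : (∫ p, Complex.reCLM (f (crd.symm p)) ^ 2) + ∫ p, Complex.imCLM (f (crd.symm p)) ^ 2 =
      ∫ x, ‖f x‖ ^ 2 := by
    rw [← integral_add nr.sq_integrable ni.sq_integrable,
      ← crd_mp.integral_comp crd.measurableEmbedding]
    congr 1; funext x
    simp only [MeasurableEquiv.symm_apply_apply, Complex.reCLM_apply, Complex.imCLM_apply,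
      Complex.sq_norm, Complex.normSq_apply]
    ring
  rw [← hsum, mul_add]
  exact add_le_add br bi

/-- The difference quotient at the singularity. -/
def dq (v : E → E) (f : E → ℂ) (x : E) (t : ℝ) : ℂ := (f (x - t • v x) - f x) / (t : ℂ)

include hv hL in
lemma dq_props :
    (∃ M, 0 ≤ M ∧ ∀ x t, ‖dq v f x t‖ ≤ M) ∧
    Measurable (Function.uncurry (dq v f)) ∧
    ∀ x t, ENNReal.ofReal ‖dq v f x t‖ ≤
      ∫⁻ θ in Ioc (0 : ℝ) 1, ENNReal.ofReal ‖fderiv ℝ f (x - (θ * t) • v x)‖ := by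
  have hfd : ∀ y, HasFDerivAt f (fderiv ℝ f y) y := fun y => (f.differentiableAt).hasFDerivAt
  have hcd : Continuous (fderiv ℝ f) := (f.smooth 1).continuous_fderiv one_ne_zero
  have hM : ∀ y, ‖fderiv ℝ f y‖ ≤ SchwartzMap.seminorm ℝ 0 1 f := fun y => by
    simpa [norm_iteratedFDeriv_one] using SchwartzMap.le_seminorm ℝ 0 1 f y
  have hint : ∀ x t, f (x - t • v x) - f x =
      ∫ θ in (0 : ℝ)..1, fderiv ℝ f (x - (θ * t) • v x) (-(t • v x)) := by
    intro x t
    rw [intervalIntegral.integral_eq_sub_of_hasDerivAt (f := fun θ : ℝ => f (x - (θ * t) • v x))]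
    · simp
    · intro θ _
      have h1 : HasDerivAt (fun θ : ℝ => x - (θ * t) • v x) (-(t • v x)) θ := by
        simpa using (((hasDerivAt_id θ).mul_const t).smul_const (v x)).const_sub x
      exact (hfd _).comp_hasDerivAt θ h1
    · exact ((hcd.comp (by fun_prop)).clm_apply continuous_const).intervalIntegrable _ _
  have hnorm : ∀ x t, ‖dq v f x t‖ ≤ ∫ θ in (0 : ℝ)..1, ‖fderiv ℝ f (x - (θ * t) • v x)‖ := by
    intro x t
    have h0 : 0 ≤ ∫ θ in (0 : ℝ)..1, ‖fderiv ℝ f (x - (θ * t) • v x)‖ :=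
      intervalIntegral.integral_nonneg zero_le_one fun θ _ => norm_nonneg _
    rcases eq_or_ne t 0 with ht | ht
    · subst ht; simp [dq]
    rw [dq, norm_div, Complex.norm_real, Real.norm_eq_abs, div_le_iff₀ (abs_pos.mpr ht), hint,
      ← intervalIntegral.integral_mul_const]
    refine (intervalIntegral.norm_integral_le_integral_norm zero_le_one).trans
      (intervalIntegral.integral_mono_on zero_le_one
        (((hcd.comp (by fun_prop)).clm_apply continuous_const).norm.intervalIntegrable _ _)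
        ((((hcd.comp (by fun_prop)).norm).mul continuous_const).intervalIntegrable _ _) fun θ _ => ?_)
    refine (ContinuousLinearMap.le_opNorm _ _).trans (le_of_eq ?_)
    rw [norm_neg, norm_smul, hv, mul_one, Real.norm_eq_abs]
  refine ⟨⟨SchwartzMap.seminorm ℝ 0 1 f, apply_nonneg _ _, fun x t => (hnorm x t).trans ?_⟩, ?_,
    fun x t => ?_⟩
  · calc _ ≤ ∫ _ in (0 : ℝ)..1, SchwartzMap.seminorm ℝ 0 1 f :=
          intervalIntegral.integral_mono_on zero_le_one
            ((hcd.comp (by fun_prop)).norm.intervalIntegrable _ _)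
            intervalIntegrable_const fun θ _ => hM _
      _ = _ := by simp
  · have := hL.continuous.measurable
    have := f.continuous.measurable
    unfold dq Function.uncurry
    fun_prop
  · refine (ENNReal.ofReal_le_ofReal (hnorm x t)).trans (le_of_eq ?_)
    have hc : Continuous fun θ : ℝ => ‖fderiv ℝ f (x - (θ * t) • v x)‖ :=
      (hcd.comp (by fun_prop)).norm
    rw [intervalIntegral.integral_of_le zero_le_one, ofReal_integral_eq_lintegral_ofReal
      ((intervalIntegrable_iff_integrableOn_Ioc_of_le zero_le_one).mp (hc.intervalIntegrable _ _))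
      (Eventually.of_forall fun θ => norm_nonneg _)]

/-- The contribution of the singularity. -/
def core (v : E → E) (f : E → ℂ) (δ : ℝ) (x : E) : ℂ := ∫ t in {t : ℝ | |t| < δ}, dq v f x t

include hv hL in
lemma core_sq {δ : ℝ} (hδ : 0 < δ) (hδ' : δ ≤ 1 / 4) :
    Integrable (fun x => ‖core v f δ x‖ ^ 2) ∧
      ∫ x, ‖core v f δ x‖ ^ 2 ≤ 16 * δ ^ 2 * ∫ x, ‖fderiv ℝ f x‖ ^ 2 := by
  have hw := unitField_coord hv hL
  obtain ⟨-, hdm, hdq⟩ := dq_props hv hL f
  have hcd : Continuous (fderiv ℝ f) := (f.smooth 1).continuous_fderiv one_ne_zero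
  have hG : Integrable fun x => ‖fderiv ℝ f x‖ ^ 2 := by
    have h := (SchwartzMap.fderivCLM ℝ E ℂ f).memLp 2 (volume : Measure E)
    simpa using h.integrable_norm_pow (p := 2) two_ne_zero
  have hm : Measurable (core v f δ) := hdm.stronglyMeasurable.integral_prod_right'.measurable
  set D : Set (ℝ × ℝ) := {t : ℝ | |t| < δ} ×ˢ Ioc (0 : ℝ) 1
  set F : ℝ × ℝ → ℝ≥0∞ := fun p => ENNReal.ofReal ‖fderiv ℝ f (crd.symm p)‖ with hF
  have hFm : Measurable F := (hcd.norm.measurable.comp crd.symm.measurable).ennreal_ofReal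
  have hτ : Measurable fun z : (ℝ × ℝ) × (ℝ × ℝ) => move (coord v) (z.1.2 * z.1.1) z.2 :=
    hw.measurable_move.comp (((measurable_snd.comp measurable_fst).mul
      (measurable_fst.comp measurable_fst)).prodMk measurable_snd)
  have hbound := lintegral_sq_lintegral_le ((volume : Measure ℝ).prod (volume : Measure ℝ))
    (τ := fun z p => move (coord v) (z.2 * z.1) p) hτ
    (D := D) ((measurableSet_win δ).prod measurableSet_Ioc) (fun z hz F hF => by
      refine hw.lintegral_move_le ?_ hF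
      rw [abs_mul, abs_of_pos hz.2.1]
      exact (mul_le_of_le_one_left (abs_nonneg _) hz.2.2).trans ((le_of_lt hz.1).trans hδ')) hFm
  have hpt : ∀ x, ENNReal.ofReal ‖core v f δ x‖ ≤
      ∫⁻ z in D, F (move (coord v) (z.2 * z.1) (crd x)) ∂(volume.prod volume) := by
    intro x
    rw [setLIntegral_prod (fun z : ℝ × ℝ => F (move (coord v) (z.2 * z.1) (crd x)))
      ((hFm.comp (hτ.comp measurable_prodMk_right)).aemeasurable)]
    refine le_trans ?_ (lintegral_mono fun t => (hdq x t).trans (le_of_eq ?_))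
    · rw [ofReal_norm]
      refine (enorm_integral_le_lintegral_enorm _).trans (le_of_eq ?_)
      simp_rw [ofReal_norm]
    · simp only [hF, move_eq]
  have hint2 : ∫⁻ x, ENNReal.ofReal (‖core v f δ x‖ ^ 2) ≤
      ENNReal.ofReal (16 * δ ^ 2 * ∫ x, ‖fderiv ℝ f x‖ ^ 2) := by
    have hJ : Measurable fun p : ℝ × ℝ =>
        (∫⁻ z in D, F (move (coord v) (z.2 * z.1) p) ∂(volume.prod volume)) ^ 2 :=
      (Measurable.lintegral_prod_left' (hFm.comp hτ)).pow_const 2
    calc ∫⁻ x, ENNReal.ofReal (‖core v f δ x‖ ^ 2)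
        ≤ ∫⁻ x, (∫⁻ z in D, F (move (coord v) (z.2 * z.1) (crd x)) ∂(volume.prod volume)) ^ 2 := by
          refine lintegral_mono fun x => ?_
          rw [ENNReal.ofReal_pow (norm_nonneg _)]
          exact pow_le_pow_left' (hpt x) 2
      _ = ∫⁻ p, (∫⁻ z in D, F (move (coord v) (z.2 * z.1) p) ∂(volume.prod volume)) ^ 2 :=
          crd_mp.lintegral_comp hJ
      _ ≤ _ := hbound
      _ = _ := by
          rw [Measure.prod_prod, volume_win, Real.volume_Ioc, sub_zero, ENNReal.ofReal_one, mul_one,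
            ← crd_mp.lintegral_comp (hFm.pow_const 2)]
          simp only [hF, MeasurableEquiv.symm_apply_apply, ← ENNReal.ofReal_pow (norm_nonneg _)]
          rw [← ofReal_integral_eq_lintegral_ofReal hG (Eventually.of_forall fun x => sq_nonneg _),
            ← ENNReal.ofReal_pow (by positivity), show (4 : ℝ≥0∞) = ENNReal.ofReal 4 by norm_num,
            ← ENNReal.ofReal_mul (by norm_num), ← ENNReal.ofReal_mul (by positivity)]
          congr 1; ring
  have hi : Integrable fun x => ‖core v f δ x‖ ^ 2 := by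
    refine ⟨(hm.norm.pow_const 2).aestronglyMeasurable, ?_⟩
    rw [hasFiniteIntegral_iff_ofReal (Eventually.of_forall fun x => sq_nonneg _)]
    exact lt_of_le_of_lt hint2 ENNReal.ofReal_lt_top
  refine ⟨hi, ?_⟩
  rw [← ofReal_integral_eq_lintegral_ofReal hi (Eventually.of_forall fun x => sq_nonneg _)] at hint2
  exact (ENNReal.ofReal_le_ofReal_iff
    (mul_nonneg (by positivity) (integral_nonneg fun x => sq_nonneg _))).mp hint2

/-- The odd kernel has integral zero on a symmetric annulus. -/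
lemma integral_inv_ann (ε δ : ℝ) : ∫ t in ann ε δ, ((t : ℂ))⁻¹ = 0 := by
  rw [← integral_indicator (measurableSet_ann ε δ)]
  have hodd : ∀ t, (ann ε δ).indicator (fun t : ℝ => ((t : ℂ))⁻¹) (-t) =
      -(ann ε δ).indicator (fun t : ℝ => ((t : ℂ))⁻¹) t := by
    intro t
    by_cases h : t ∈ ann ε δ
    · have h' : -t ∈ ann ε δ := by simpa [ann] using h
      simp [h, h', inv_neg]
    · have h' : -t ∉ ann ε δ := by simpa [ann] using h
      simp [h, h']
  have := integral_neg_eq_self ((ann ε δ).indicator fun t : ℝ => ((t : ℂ))⁻¹) volume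
  simp_rw [hodd] at this
  rw [integral_neg] at this
  linear_combination (-1 / 2 : ℂ) * this

/-- Dominated convergence at the singularity. -/
lemma tendsto_core {g : ℝ → ℂ} (hdmx : Measurable g) {M δ : ℝ} (hM : ∀ t, ‖g t‖ ≤ M) :
    Tendsto (fun ε => ∫ t, (ann ε δ).indicator g t) (𝓝[>] 0) (𝓝 (∫ t in {t : ℝ | |t| < δ}, g t)) := by
  rw [← integral_indicator (measurableSet_win δ)]
  refine tendsto_integral_filter_of_dominated_convergence
    (fun t => {t : ℝ | |t| < δ}.indicator (fun _ => M) t)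
    (Eventually.of_forall fun ε => (hdmx.indicator (measurableSet_ann ε δ)).aestronglyMeasurable)
    ?_ ?_ ?_
  · filter_upwards [self_mem_nhdsWithin] with ε _
    refine Eventually.of_forall fun t => ?_
    by_cases ht : |t| < δ
    · rw [Set.indicator_of_mem (show t ∈ {t : ℝ | |t| < δ} from ht)]
      exact (norm_indicator_le_norm_self _ _).trans (hM t)
    · rw [Set.indicator_of_notMem (show t ∉ {t : ℝ | |t| < δ} from ht),
        Set.indicator_of_notMem (fun h : t ∈ ann ε δ => ht h.2), norm_zero]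
  · exact (integrable_indicator_iff (measurableSet_win δ)).mpr
      (integrableOn_const (by rw [volume_win]; exact ENNReal.ofReal_ne_top))
  · filter_upwards [Measure.ae_ne volume (0 : ℝ)] with t ht
    apply tendsto_const_nhds.congr'
    filter_upwards [Ioo_mem_nhdsGT (abs_pos.mpr ht)] with ε hε
    by_cases h : |t| < δ
    · rw [Set.indicator_of_mem (show t ∈ {t : ℝ | |t| < δ} from h),
        Set.indicator_of_mem (show t ∈ ann ε δ from ⟨hε.2.le, h⟩)]
    · rw [Set.indicator_of_notMem (show t ∉ {t : ℝ | |t| < δ} from h),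
        Set.indicator_of_notMem (fun h' : t ∈ ann ε δ => h h'.2)]

include hv hL in
lemma tendsto_pv {δ a : ℝ} (hδ : 0 < δ) (hδa : δ < a) (x : E) :
    Tendsto (fun ε => ∫ t in {t : ℝ | ε < |t| ∧ |t| < a}, f (x - t • v x) / (t : ℂ)) (𝓝[>] 0)
      (𝓝 ((∫ t in {t : ℝ | δ < |t| ∧ |t| < a}, f (x - t • v x) / (t : ℂ)) + core v f δ x)) := by
  obtain ⟨⟨M, hM0, hM⟩, hdm, -⟩ := dq_props hv hL f
  have hdmx : Measurable (dq v f x) := hdm.of_uncurry_left
  have hdqi : ∀ b c, IntegrableOn (dq v f x) (ann b c) := fun b c =>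
    IntegrableOn.of_bound (volume_ann_lt_top b c) hdmx.aestronglyMeasurable M
      (Eventually.of_forall fun t => hM x t)
  have hsplit : ∀ ε ∈ Ioo 0 δ, ∫ t in {t : ℝ | ε < |t| ∧ |t| < a}, f (x - t • v x) / (t : ℂ) =
      (∫ t in {t : ℝ | δ < |t| ∧ |t| < a}, f (x - t • v x) / (t : ℂ)) +
        ∫ t, (ann ε δ).indicator (dq v f x) t := by
    intro ε hε
    rw [setIntegral_congr_set (open_ann_ae ε a), setIntegral_congr_set (open_ann_ae δ a)]
    have hu : ann ε a = ann δ a ∪ ann ε δ := by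
      ext z
      simp only [ann, Set.mem_union, Set.mem_ofPred_eq]
      constructor
      · rintro ⟨p, q⟩
        rcases lt_or_ge |z| δ with h | h
        · exact Or.inr ⟨p, h⟩
        · exact Or.inl ⟨h, q⟩
      · rintro (⟨p, q⟩ | ⟨p, q⟩)
        · exact ⟨hε.2.le.trans p, q⟩
        · exact ⟨p, q.trans hδa⟩
    have hd : Disjoint (ann δ a) (ann ε δ) :=
      Set.disjoint_left.mpr fun z hz hz' => absurd hz'.2 (not_lt.mpr hz.1)
    rw [hu, setIntegral_union hd (measurableSet_ann ε δ) (integrableOn_kernel (v := v) f hδ x)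
      (integrableOn_kernel (v := v) f hε.1 x), integral_indicator (measurableSet_ann ε δ)]
    congr 1
    have e : (fun t : ℝ => f (x - t • v x) / (t : ℂ)) = fun t => dq v f x t + f x * ((t : ℂ))⁻¹ := by
      funext t; simp only [dq, div_eq_mul_inv]; ring
    have hi : IntegrableOn (fun t : ℝ => f x * ((t : ℂ))⁻¹) (ann ε δ) := by
      have := (integrableOn_kernel (v := v) f hε.1 x (a := δ)).sub (hdqi ε δ)
      refine this.congr (Eventually.of_forall fun t => ?_)
      simp only [Pi.sub_apply, dq, div_eq_mul_inv]; ring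
    rw [e, integral_add (hdqi ε δ) hi, integral_const_mul, integral_inv_ann, mul_zero, add_zero]
  have hlim : Tendsto (fun ε => ∫ t, (ann ε δ).indicator (dq v f x) t) (𝓝[>] 0) (𝓝 (core v f δ x)) :=
    tendsto_core hdmx (hM x)
  refine (hlim.const_add _).congr' ?_
  filter_upwards [Ioo_mem_nhdsGT hδ] with ε hε
  exact (hsplit ε hε).symm

theorem result :
    ∃ C a₀ : ℝ, 0 < a₀ ∧
      ∀ v : EuclideanSpace ℝ (Fin 2) → EuclideanSpace ℝ (Fin 2), (∀ x, ‖v x‖ = 1) →
      LipschitzWith 1 v → ∀ f : SchwartzMap (EuclideanSpace ℝ (Fin 2)) ℂ,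
        (∀ ε a : ℝ, 0 < ε → ε < a → a ≤ a₀ →
          Integrable (fun x => ‖∫ t in {t : ℝ | ε < |t| ∧ |t| < a}, f (x - t • v x) / (t : ℂ)‖ ^ 2) ∧
          ∫ x, ‖∫ t in {t : ℝ | ε < |t| ∧ |t| < a}, f (x - t • v x) / (t : ℂ)‖ ^ 2 ≤
            C * (1 + Real.log (a / ε)) * ∫ x, ‖f x‖ ^ 2) ∧
        (∀ a K : ℝ, 0 < a → a ≤ a₀ → 1 ≤ K →
          a ^ 2 * ∫ x, ‖fderiv ℝ f x‖ ^ 2 ≤ K ^ 2 * ∫ x, ‖f x‖ ^ 2 →
          ∃ Hf : EuclideanSpace ℝ (Fin 2) → ℂ,
            (∀ x, Tendsto (fun ε => ∫ t in {t : ℝ | ε < |t| ∧ |t| < a}, f (x - t • v x) / (t : ℂ))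
              (𝓝[>] 0) (𝓝 (Hf x))) ∧
            Integrable (fun x => ‖Hf x‖ ^ 2) ∧
            ∫ x, ‖Hf x‖ ^ 2 ≤ C * (1 + Real.log K) * ∫ x, ‖f x‖ ^ 2) := by
  refine ⟨70000000, 1 / 16384, by norm_num, fun v hv hL f => ⟨fun ε a hε ha ha' => ?_,
    fun a K ha ha' hK hgrad => ?_⟩⟩
  · obtain ⟨h1, h2⟩ := trunc_complex hv hL f hε ha ha'
    refine ⟨h1, h2.trans ?_⟩
    have : 0 ≤ Real.log (a / ε) := Real.log_nonneg (by rw [le_div_iff₀ hε]; linarith)
    gcongr
    norm_num
  · set δ := a / (2 * K) with hδ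
    have hδ0 : 0 < δ := by positivity
    have hδa : δ < a := by rw [hδ, div_lt_iff₀ (by linarith)]; nlinarith
    obtain ⟨h1, h2⟩ := trunc_complex hv hL f hδ0 hδa ha'
    obtain ⟨c1, c2⟩ := core_sq hv hL f (δ := δ) hδ0 (by linarith)
    refine ⟨fun x => (∫ t in {t : ℝ | δ < |t| ∧ |t| < a}, f (x - t • v x) / (t : ℂ)) + core v f δ x,
      tendsto_pv hv hL f hδ0 hδa, ?_⟩
    set A := fun x => ∫ t in {t : ℝ | δ < |t| ∧ |t| < a}, f (x - t • v x) / (t : ℂ) with hA
    set Q := core v f δ with hQ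
    have hle : ∀ x, ‖A x + Q x‖ ^ 2 ≤ 2 * ‖A x‖ ^ 2 + 2 * ‖Q x‖ ^ 2 := fun x => by
      have h := pow_le_pow_left₀ (norm_nonneg _) (norm_add_le (A x) (Q x)) 2
      nlinarith [sq_nonneg (‖A x‖ - ‖Q x‖)]
    have hAm : Measurable A := by
      have hset : MeasurableSet {t : ℝ | δ < |t| ∧ |t| < a} :=
        (measurableSet_lt measurable_const measurable_id.abs).inter (measurableSet_win a)
      have : Measurable fun z : EuclideanSpace ℝ (Fin 2) × ℝ => f (z.1 - z.2 • v z.1) / (z.2 : ℂ) := by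
        have := hL.continuous.measurable
        have := f.continuous.measurable
        fun_prop
      exact this.stronglyMeasurable.integral_prod_right'.measurable
    have hQm : Measurable Q :=
      (dq_props hv hL f).2.1.stronglyMeasurable.integral_prod_right'.measurable
    have i0 : Integrable fun x => ‖A x + Q x‖ ^ 2 :=
      ((h1.const_mul 2).add (c1.const_mul 2)).mono' ((hAm.add hQm).norm.pow_const 2).aestronglyMeasurable
        (Eventually.of_forall fun x => by
          rw [Real.norm_eq_abs, abs_of_nonneg (sq_nonneg _)]; exact hle x)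
    refine ⟨i0, (integral_mono i0 ((h1.const_mul 2).add (c1.const_mul 2)) hle).trans ?_⟩
    simp only [Pi.add_apply]
    rw [integral_add (h1.const_mul 2) (c1.const_mul 2), integral_const_mul, integral_const_mul]
    have hlog : Real.log (a / δ) ≤ 1 + Real.log K := by
      rw [show a / δ = 2 * K by rw [hδ]; field_simp, Real.log_mul two_ne_zero (by linarith)]
      linarith [Real.log_two_lt_d9]
    have hcore : δ ^ 2 * ∫ x, ‖fderiv ℝ f x‖ ^ 2 ≤ (1 / 4) * ∫ x, ‖f x‖ ^ 2 := by
      rw [hδ, div_pow, div_mul_eq_mul_div, div_le_iff₀ (by positivity)]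
      nlinarith
    have hX : 0 ≤ ∫ x, ‖f x‖ ^ 2 := integral_nonneg fun x => sq_nonneg _
    have hlK : 0 ≤ Real.log K := Real.log_nonneg hK
    nlinarith [mul_le_mul_of_nonneg_right hlog hX, mul_nonneg hlK hX]

end

end Vale.Agent.Results.P112.SteinSqrtLog
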